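import Vale.Agent.P181.NR.H153.Num
import Vale.Agent.P181.NR.H118.Core

set_option autoImplicit false

/-!
# P181, NR, second step: [P3] CoreP
-/

namespace Vale.Agent.P181.NR.H153

open Vale.Agent.P181.H280 (plethMult)
open Vale.Agent.P181.FR (gw)
open Vale.Agent.P181.NR
open Vale.Agent.P181.NR.H118 (gap gw_gap sum_gap exists_gap)

/-- The final comparison, from its logarithm. -/
lemma fin_cmp {k n a b B p : ℕ} {lam : Fin (k + 3) → ℕ}
    (h : Real.log (((a + b).choose a : ℕ) : ℝ) +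
      ∑ i : Fin (k + 1), Real.log (((a + lam i.succ.succ).choose a : ℕ) : ℝ) +
      Real.log ((n * B).factorial : ℝ) + B * Real.log (((n + n * a).choose n : ℕ) : ℝ) ≤
      (B : ℝ) * ((n - 2 * (k + 3) - 1 : ℕ) : ℝ) *
        ∑ i, Real.log ((max 1 (lam i / p) : ℕ) : ℝ)) :
    (n * B).factorial * (n + n * a).choose n ^ B * ((a + b).choose a *
      ∏ i : Fin (k + 1), (a + lam i.succ.succ).choose (lam i.succ.succ)) ≤
      (∏ i : Fin (k + 3), max 1 (lam i / p) ^ (n - 2 * (k + 3) - 1)) ^ B := by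
  obtain ⟨q, hq⟩ : ∃ q, q = n - 2 * (k + 3) - 1 := ⟨_, rfl⟩
  rw [← hq] at h ⊢
  obtain ⟨R, hR⟩ : ∃ R, R = ∑ i : Fin (k + 3),
    Real.log ((max 1 (lam i / p) : ℕ) : ℝ) := ⟨_, rfl⟩
  rw [← hR] at h
  have hmax : ∀ i : Fin (k + 3), 0 < max 1 (lam i / p) := fun i =>
    lt_of_lt_of_le Nat.one_pos (le_max_left _ _)
  have hP : Real.log (((∏ i : Fin (k + 3), max 1 (lam i / p) ^ q) ^ B : ℕ) : ℝ) =
      B * (q * R) := by
    have e1 : ∑ i : Fin (k + 3), Real.log ((max 1 (lam i / p) ^ q : ℕ) : ℝ) = q * R := by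
      rw [hR, Finset.mul_sum]
      refine Finset.sum_congr rfl fun i _ => ?_
      rw [Nat.cast_pow, Real.log_pow]
    rw [Nat.cast_pow, Real.log_pow, Nat.cast_prod, Real.log_prod, e1]
    intro i _
    have := pow_pos (hmax i) q
    positivity
  have hV2 : Real.log ((∏ i : Fin (k + 1),
      (a + lam i.succ.succ).choose (lam i.succ.succ) : ℕ) : ℝ) =
      ∑ i : Fin (k + 1), Real.log (((a + lam i.succ.succ).choose a : ℕ) : ℝ) := by
    rw [Nat.cast_prod, Real.log_prod]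
    · refine Finset.sum_congr rfl fun i _ => ?_
      rw [Nat.choose_symm_add]
    · intro i _
      have := Nat.choose_pos (Nat.le_add_left (lam i.succ.succ) a)
      positivity
  rw [← hV2] at h
  have pF : 0 < (n * B).factorial := Nat.factorial_pos _
  have pC : 0 < (n + n * a).choose n := Nat.choose_pos (Nat.le_add_right _ _)
  have pV1 : 0 < (a + b).choose a := Nat.choose_pos (Nat.le_add_right _ _)
  have pV2 : 0 < ∏ i : Fin (k + 1), (a + lam i.succ.succ).choose (lam i.succ.succ) :=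
    Finset.prod_pos fun i _ => Nat.choose_pos (Nat.le_add_left _ _)
  have pP : 0 < (∏ i : Fin (k + 3), max 1 (lam i / p) ^ q) ^ B :=
    pow_pos (Finset.prod_pos fun i _ => pow_pos (hmax i) _) _
  obtain ⟨V, hV⟩ : ∃ V, V = ∏ i : Fin (k + 1),
    (a + lam i.succ.succ).choose (lam i.succ.succ) := ⟨_, rfl⟩
  obtain ⟨P, hPd⟩ : ∃ P, P = (∏ i : Fin (k + 3), max 1 (lam i / p) ^ q) ^ B := ⟨_, rfl⟩
  rw [← hV] at h pV2 ⊢
  rw [← hPd] at hP pP ⊢
  have pall : 0 < (n * B).factorial * (n + n * a).choose n ^ B * ((a + b).choose a * V) := by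
    positivity
  have hlhs : Real.log (((n * B).factorial * (n + n * a).choose n ^ B *
      ((a + b).choose a * V) : ℕ) : ℝ) = Real.log ((n * B).factorial : ℝ) +
      B * Real.log ((n + n * a).choose n : ℝ) +
      (Real.log ((a + b).choose a : ℝ) + Real.log (V : ℝ)) := by
    rw [Nat.cast_mul, Nat.cast_mul, Nat.cast_mul, Nat.cast_pow,
      Real.log_mul, Real.log_mul, Real.log_mul, Real.log_pow]
    all_goals positivity
  have hfin : Real.log (((n * B).factorial * (n + n * a).choose n ^ B *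
      ((a + b).choose a * V) : ℕ) : ℝ) ≤ Real.log (P : ℝ) := by
    rw [hlhs, hP]
    linarith
  have := (Real.log_le_log_iff (by exact_mod_cast pall) (by exact_mod_cast pP)).1 hfin
  exact_mod_cast this

/-- Powers of the logarithm are smaller than `a`. -/
lemma ev (K : ℝ) (hK : 0 < K) (e : ℕ) :
    ∃ A0 : ℕ, ∀ a : ℕ, A0 ≤ a → K * (1 + Real.log a) ^ e ≤ (a : ℝ) := by
  have h1 : (fun x : ℝ => Real.log x ^ e) =o[Filter.atTop] id :=
    Real.isLittleO_pow_log_id_atTop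
  have h2 := h1.bound (show 0 < (K * 2 ^ e)⁻¹ by positivity)
  have h3 := tendsto_natCast_atTop_atTop (R := ℝ) |>.eventually h2
  obtain ⟨A0, hA0⟩ := Filter.eventually_atTop.1 (h3.and (Filter.eventually_ge_atTop 3))
  refine ⟨A0, fun a ha => ?_⟩
  obtain ⟨h4, h5⟩ := hA0 a ha
  have ha3 : (3 : ℝ) ≤ a := by exact_mod_cast h5
  have hlog : 1 ≤ Real.log a := by
    rw [Real.le_log_iff_exp_le (by linarith)]
    have := Real.exp_one_lt_d9
    linarith
  rw [Real.norm_of_nonneg (by positivity), id, Real.norm_of_nonneg (by positivity)] at h4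
  calc K * (1 + Real.log a) ^ e ≤ K * (2 * Real.log a) ^ e := by
        apply mul_le_mul_of_nonneg_left _ hK.le
        exact pow_le_pow_left₀ (by linarith) (by linarith) _
    _ = (K * 2 ^ e) * Real.log a ^ e := by rw [mul_pow, mul_assoc]
    _ ≤ (K * 2 ^ e) * ((K * 2 ^ e)⁻¹ * a) :=
        mul_le_mul_of_nonneg_left h4 (by positivity)
    _ = a := by rw [← mul_assoc, mul_inv_cancel₀ (by positivity), one_mul]

/-- The size of the blocks. -/
lemma size (k : ℕ) (L : ℝ) (hL : 0 ≤ L) : ∃ n : ℕ, 4 * (k + 3) + 4 ≤ n ∧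
    (k + 3).factorial ∣ n ∧ L ≤ n ∧
    (n : ℝ) ≤ ((k + 3).factorial : ℝ) * (4 * (k + 3) + 5) * (1 + L) := by
  have hn' : ⌈L⌉₊ + 4 * (k + 3) + 4 ≤ (k + 3).factorial * (⌈L⌉₊ + 4 * (k + 3) + 4) :=
    Nat.le_mul_of_pos_left _ (Nat.factorial_pos _)
  refine ⟨(k + 3).factorial * (⌈L⌉₊ + 4 * (k + 3) + 4), by omega, Dvd.intro _ rfl, ?_, ?_⟩
  · have h1 := Nat.le_ceil L
    have h2 : ((⌈L⌉₊ : ℕ) : ℝ) ≤ (((k + 3).factorial * (⌈L⌉₊ + 4 * (k + 3) + 4) : ℕ) : ℝ) := by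
      have : ⌈L⌉₊ ≤ (k + 3).factorial * (⌈L⌉₊ + 4 * (k + 3) + 4) := by omega
      exact_mod_cast this
    linarith
  · have h1 := (Nat.ceil_lt_add_one hL).le
    push_cast
    rw [mul_assoc]
    apply mul_le_mul_of_nonneg_left _ (by positivity)
    have h2 : 0 ≤ (4 * ((k : ℝ) + 3) + 4) * L := by positivity
    linarith

/-- The large numbers. -/
lemma large {M C₀ L a n : ℝ} {D c₀ : ℕ} (hM1 : 1 ≤ M) (hC₀ : 1 ≤ C₀) (hL : 0 ≤ L)
    (hev : 64 * M ^ (D + 1) * C₀ * (1 + L) ^ (D + 2 + c₀) ≤ a) (hn0 : 0 ≤ n)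
    (hnM : n ≤ M * (1 + L)) :
    C₀ * (1 + L) ^ c₀ ≤ a ∧ 64 * n ^ (D + 1) * (1 + L) ≤ a := by
  have h1L1 : (1 : ℝ) ≤ 1 + L := by linarith
  have hpw : ∀ e e' : ℕ, e ≤ e' → (1 + L) ^ e ≤ (1 + L) ^ e' := fun e e' h =>
    pow_le_pow_right₀ h1L1 h
  have hMp : (1 : ℝ) ≤ M ^ (D + 1) := one_le_pow₀ hM1
  have hM0 : 0 < M := by linarith
  have hC0 : 0 < C₀ := by linarith
  refine ⟨le_trans ?_ hev, le_trans ?_ hev⟩
  · have h2 : (1 + L) ^ c₀ ≤ (1 + L) ^ (D + 2 + c₀) := hpw _ _ (by omega)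
    have h3 : 1 * C₀ ≤ 64 * M ^ (D + 1) * C₀ :=
      mul_le_mul_of_nonneg_right (by linarith) hC0.le
    rw [one_mul] at h3
    exact mul_le_mul h3 h2 (by positivity) (by positivity)
  · have h1 : n ^ (D + 1) ≤ (M * (1 + L)) ^ (D + 1) := pow_le_pow_left₀ hn0 hnM _
    calc 64 * n ^ (D + 1) * (1 + L) ≤ 64 * (M * (1 + L)) ^ (D + 1) * (1 + L) := by
          apply mul_le_mul_of_nonneg_right _ (by linarith)
          linarith
      _ = 64 * M ^ (D + 1) * 1 * (1 + L) ^ (D + 2) := by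
          rw [mul_pow]
          ring
      _ ≤ 64 * M ^ (D + 1) * C₀ * (1 + L) ^ (D + 2 + c₀) := by
          apply mul_le_mul _ (hpw _ _ (by omega)) (by positivity) (by positivity)
          exact mul_le_mul_of_nonneg_left hC₀ (by positivity)

/-- The blocks. -/
lemma blocks {k a b n D : ℕ} {L C1 : ℝ} (hL1 : 1 ≤ L) (ha0 : (0 : ℝ) < a) (hab : a ≤ b)
    (hn4 : 4 * (k + 3) + 4 ≤ n) (hLn : L ≤ n) (hF1 : 64 * (n : ℝ) ^ (D + 1) * (1 + L) ≤ a)
    (hG : C1 * b ≤ (b - a) * (4 * L)) (hC1b : 32 * (2 * (k : ℝ) + 7) ≤ C1) (hC1d : 2 ≤ C1) :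
    ∃ B : ℕ, 0 < B ∧ n * B ≤ b ∧ (B : ℝ) ≤ b ∧ n ^ D ≤ a ∧ b ≤ 2 * n * B ∧
      n * B * a + n ^ D * a + n ^ D * B ≤ a * b ∧
      ((b : ℝ) - a) / 2 ≤ (B : ℝ) * ((n - 2 * (k + 3) - 1 : ℕ) : ℝ) - a := by
  have habR : (a : ℝ) ≤ b := by exact_mod_cast hab
  have hb0 : (0 : ℝ) < b := by linarith
  have hn0 : 0 < n := by omega
  have hnR : (1 : ℝ) ≤ n := by exact_mod_cast hn0
  have h1L1 : (1 : ℝ) ≤ 1 + L := by linarith
  have hnD : (1 : ℝ) ≤ (n : ℝ) ^ D := one_le_pow₀ hnR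
  have hnD1 : (n : ℝ) ^ D ≤ (n : ℝ) ^ (D + 1) := pow_le_pow_right₀ hnR (by omega)
  have hnn1 : (n : ℝ) ≤ (n : ℝ) ^ (D + 1) := by
    calc (n : ℝ) = (n : ℝ) ^ 1 := (pow_one _).symm
      _ ≤ (n : ℝ) ^ (D + 1) := pow_le_pow_right₀ hnR (by omega)
  have hG' : (b : ℝ) ≤ (b - a) * (4 * L) := by
    have : 1 * (b : ℝ) ≤ C1 * b := mul_le_mul_of_nonneg_right (by linarith) hb0.le
    linarith
  have hH1 : 16 * (n : ℝ) ^ (D + 1) ≤ (b : ℝ) - a := by
    have h1 : (4 * L) * (16 * (n : ℝ) ^ (D + 1)) ≤ (4 * L) * ((b : ℝ) - a) := by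
      have h2 : 64 * (n : ℝ) ^ (D + 1) * L ≤ 64 * (n : ℝ) ^ (D + 1) * (1 + L) :=
        mul_le_mul_of_nonneg_left (by linarith) (by positivity)
      linarith
    exact le_of_mul_le_mul_left h1 (by linarith)
  have hH2 : 16 * (n : ℝ) ≤ (b : ℝ) - a := by linarith
  have hn16 : (16 : ℝ) ≤ n := by
    have : 16 ≤ n := by omega
    exact_mod_cast this
  -- the number of the blocks
  obtain ⟨y, hy⟩ : ∃ y, y = (b - a) / 8 := ⟨_, rfl⟩
  obtain ⟨B, hB⟩ : ∃ B, B = (b - y) / n := ⟨_, rfl⟩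
  have hy1 : 8 * y ≤ b - a := by omega
  have hy2 : b - a ≤ 8 * y + 7 := by omega
  have hy1R : 8 * (y : ℝ) ≤ b - a := by
    have h1 : ((b - a : ℕ) : ℝ) = (b : ℝ) - a := Nat.cast_sub hab
    rw [← h1]
    exact_mod_cast hy1
  have hy2R : (b : ℝ) - a ≤ 8 * y + 7 := by
    have h1 : ((b - a : ℕ) : ℝ) = (b : ℝ) - a := Nat.cast_sub hab
    rw [← h1]
    exact_mod_cast hy2
  have hyb : y ≤ b := by omega
  have hB1 : n * B ≤ b - y := by
    rw [hB]
    exact Nat.mul_div_le _ _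
  have hB2 : b - y < n * B + n := by
    have h1 := Nat.div_add_mod (b - y) n
    have h2 := Nat.mod_lt (b - y) hn0
    rw [hB]
    omega
  have hB1R : (n : ℝ) * B ≤ b - y := by
    have h1 : ((b - y : ℕ) : ℝ) = (b : ℝ) - y := Nat.cast_sub hyb
    rw [← h1]
    exact_mod_cast hB1
  have hB2R : (b : ℝ) - y ≤ n * B + n := by
    have h1 : ((b - y : ℕ) : ℝ) = (b : ℝ) - y := Nat.cast_sub hyb
    rw [← h1]
    exact_mod_cast hB2.le
  have hyR : (0 : ℝ) ≤ y := Nat.cast_nonneg _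
  have hB0R : (0 : ℝ) < B := by
    by_contra hc
    have h1 : (B : ℝ) = 0 := le_antisymm (not_lt.1 hc) (Nat.cast_nonneg _)
    rw [h1, mul_zero] at hB2R
    linarith
  have hB0 : 0 < B := by exact_mod_cast hB0R
  have hBn : (B : ℝ) ≤ n * B := by
    have := mul_le_mul_of_nonneg_right hnR hB0R.le
    linarith
  have hBb : (B : ℝ) ≤ b := by linarith
  have hnBb : n * B ≤ b := by omega
  have c1 : n ^ D ≤ a := by
    have h1 : (n : ℝ) ^ D ≤ a := by
      have h2 : 64 * (n : ℝ) ^ (D + 1) * 1 ≤ 64 * (n : ℝ) ^ (D + 1) * (1 + L) :=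
        mul_le_mul_of_nonneg_left h1L1 (by positivity)
      linarith
    exact_mod_cast h1
  have c3 : b ≤ 2 * n * B := by
    have h1 : (b : ℝ) ≤ 2 * n * B := by linarith
    exact_mod_cast h1
  have hnDab : (n : ℝ) ^ D * (a + B) ≤ (n : ℝ) ^ D * (2 * b) :=
    mul_le_mul_of_nonneg_left (by linarith) (by positivity)
  have c4 : n * B * a + n ^ D * a + n ^ D * B ≤ a * b := by
    have h1 : 32 * ((n : ℝ) ^ D * b) ≤ a * (b - a) := by
      have h2 : (4 * L) * (32 * ((n : ℝ) ^ D * b)) ≤ (4 * L) * (a * (b - a)) := by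
        have h3 : 64 * (n : ℝ) ^ D * L ≤ a := by
          have h4 : 64 * (n : ℝ) ^ D * L ≤ 64 * (n : ℝ) ^ (D + 1) * (1 + L) := by
            apply mul_le_mul _ (by linarith) (by linarith) (by positivity)
            linarith
          linarith
        have h5 : (2 * (b : ℝ)) * (64 * (n : ℝ) ^ D * L) ≤ (2 * b) * a :=
          mul_le_mul_of_nonneg_left h3 (by linarith)
        have h6 : 2 * (b : ℝ) ≤ (b - a) * (4 * L) := by
          have : 2 * (b : ℝ) ≤ C1 * b := mul_le_mul_of_nonneg_right hC1d hb0.le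
          linarith
        have h7 := mul_le_mul_of_nonneg_left h6 ha0.le
        linarith
      exact le_of_mul_le_mul_left h2 (by linarith)
    have h2 : (a : ℝ) * (n * B) ≤ a * (b - y) := mul_le_mul_of_nonneg_left hB1R ha0.le
    have h3 : (a : ℝ) * ((b - a) / 16) ≤ a * y := by
      apply mul_le_mul_of_nonneg_left _ ha0.le
      linarith
    have h4 : (n : ℝ) * B * a + (n : ℝ) ^ D * a + (n : ℝ) ^ D * B ≤ a * b := by
      linarith
    exact_mod_cast h4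
  refine ⟨B, hB0, hnBb, hBb, c1, c3, c4, ?_⟩
  have h1 : (B : ℝ) * ((n - 2 * (k + 3) - 1 : ℕ) : ℝ) = n * B - (2 * k + 7) * B := by
    rw [Nat.cast_sub (by omega), Nat.cast_sub (by omega)]
    push_cast
    ring
  rw [h1]
  have h2 : (2 * (k : ℝ) + 7) * B ≤ (b - a) / 8 := by
    have h3 : L * ((2 * (k : ℝ) + 7) * B) ≤ L * ((b - a) / 8) := by
      have h4 : (B : ℝ) * L ≤ b := by
        calc (B : ℝ) * L ≤ B * n := mul_le_mul_of_nonneg_left hLn hB0R.le
          _ ≤ b := by linarith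
      have h5 : (2 * (k : ℝ) + 7) * (B * L) ≤ (2 * k + 7) * b :=
        mul_le_mul_of_nonneg_left h4 (by positivity)
      have h6 : 32 * (2 * (k : ℝ) + 7) * b ≤ C1 * b :=
        mul_le_mul_of_nonneg_right hC1b hb0.le
      linarith
    exact le_of_mul_le_mul_left h3 (by linarith)
  linarith

/-- One gap. -/
theorem coreJ (hLow : LowP) (hU : UpR) (k j c₀ : ℕ) (C₀ : ℝ) (hC₀ : 1 ≤ C₀) (hj3 : 3 ≤ j)
    (hjm : j ≤ k + 3) :
    ∃ C : ℝ, 0 < C ∧ ∀ (a b : ℕ) (lam : Fin (k + 3) → ℕ), Antitone lam →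
      ∑ i, lam i = a * b → C ≤ a → a ≤ b →
      (b : ℝ) ≤ C₀ * a * (1 + Real.log a) ^ c₀ →
      (a : ℝ) ^ 2 ≤ C₀ * (1 + Real.log a) ^ c₀ * lam 1 →
      C * b * Real.log (2 + Real.log a) ≤ ((b : ℝ) - a) * Real.log ((lam 2 : ℝ) / a) →
      lam 2 ≤ (k + 3) * gap lam j →
      plethMult a b (k + 3) lam ≤ plethMult b a (k + 3) lam := by
  obtain ⟨D, hLow⟩ := hLow (k + 3) j hj3 hjm
  obtain ⟨M, hM⟩ : ∃ M : ℝ, M = ((k + 3).factorial : ℝ) * (4 * (k + 3) + 5) := ⟨_, rfl⟩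
  have hfac : (1 : ℝ) ≤ ((k + 3).factorial : ℝ) := by
    exact_mod_cast Nat.factorial_pos (k + 3)
  have hM1 : 1 ≤ M := by
    rw [hM]
    have h1 : (1 : ℝ) ≤ 4 * (k + 3) + 5 := by
      have : (0 : ℝ) ≤ k := Nat.cast_nonneg _
      linarith
    exact one_le_mul_of_one_le_of_one_le hfac h1
  have hM0 : 0 < M := by linarith
  have hC0 : 0 < C₀ := by linarith
  obtain ⟨lM, hlM⟩ : ∃ x, x = Real.log M := ⟨_, rfl⟩
  obtain ⟨lC, hlC⟩ : ∃ x, x = Real.log C₀ := ⟨_, rfl⟩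
  have hlM0 : 0 ≤ lM := hlM ▸ Real.log_nonneg hM1
  have hlC0 : 0 ≤ lC := hlC ▸ Real.log_nonneg hC₀
  obtain ⟨cS, hcS⟩ : ∃ x : ℝ, x = D * (2 * lM + 1) + 2 * lC + c₀ + 2 := ⟨_, rfl⟩
  have hcS0 : 0 ≤ cS := by rw [hcS]; positivity
  obtain ⟨C1, hC1⟩ : ∃ x : ℝ, x = 2 * (k + 6) * cS + 24 * k + 80 + 32 * (2 * k + 7) := ⟨_, rfl⟩
  have hk0 : (0 : ℝ) ≤ k := Nat.cast_nonneg _
  have hC1a : 2 * (k + 6) * cS + 24 * k + 80 ≤ C1 := by
    rw [hC1]
    linarith
  have hkcS : 0 ≤ (k : ℝ) * cS := mul_nonneg hk0 hcS0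
  have hC1b : 32 * (2 * (k : ℝ) + 7) ≤ C1 := by
    rw [hC1]
    linarith
  have hC1c : cS + 2 * (k + 3) ≤ C1 := by
    rw [hC1]
    linarith
  have hC1d : 2 ≤ C1 := by linarith
  obtain ⟨A0, hA0⟩ := ev (64 * M ^ (D + 1) * C₀) (by positivity) (D + 2 + c₀)
  refine ⟨C1 + A0 + 3, by positivity, ?_⟩
  intro a b lam hlam hsum hCa hab hb hl1 hl2 hgap
  have hA0R : (0 : ℝ) ≤ A0 := Nat.cast_nonneg _
  have ha3 : (3 : ℝ) ≤ a := by linarith
  have haA : A0 ≤ a := by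
    have : (A0 : ℝ) ≤ a := by linarith
    exact_mod_cast this
  have hev := hA0 a haA
  have ha0 : (0 : ℝ) < a := by linarith
  have ha1 : 1 ≤ a := by
    have : (1 : ℝ) ≤ a := by linarith
    exact_mod_cast this
  have habR : (a : ℝ) ≤ b := by exact_mod_cast hab
  have hb0 : (0 : ℝ) < b := by linarith
  obtain ⟨L, hL⟩ : ∃ L, L = Real.log a := ⟨_, rfl⟩
  obtain ⟨Lam, hLam⟩ : ∃ x, x = Real.log (2 + Real.log a) := ⟨_, rfl⟩
  have hL1 : 1 ≤ L := by
    rw [hL, Real.le_log_iff_exp_le ha0]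
    have := Real.exp_one_lt_d9
    linarith
  rw [← hLam] at hl2
  rw [← hL] at hb hl1 hev hLam
  have hLam1 : 1 / 2 ≤ Lam := by
    rw [hLam]
    exact half_le.trans (Real.log_le_log two_pos (by linarith))
  have hLam2 : Real.log (1 + L) ≤ Lam := by
    rw [hLam]
    exact Real.log_le_log (by linarith) (by linarith)
  have hl2' : C1 * b * Lam ≤ ((b : ℝ) - a) * Real.log ((lam 2 : ℝ) / a) := by
    refine le_trans ?_ hl2
    have : 0 ≤ ((A0 : ℝ) + 3) * (b * Lam) :=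
      mul_nonneg (by linarith) (mul_nonneg hb0.le (by linarith))
    linarith
  obtain ⟨l, hl⟩ : ∃ x, x = Real.log ((lam 2 : ℝ) / a) := ⟨_, rfl⟩
  have hl2'' := hl2'
  rw [← hl] at hl2''
  have hbL : 0 < (b : ℝ) * Lam := mul_pos hb0 (by linarith)
  have hC1bL : 0 < C1 * b * Lam := by
    have : 0 < C1 * (b * Lam) := mul_pos (by linarith) hbL
    linarith
  have hba0 : 0 ≤ (b : ℝ) - a := by linarith
  have hpos : 0 < ((b : ℝ) - a) * l := lt_of_lt_of_le hC1bL hl2''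
  have hl0 : 0 < l := by
    rcases mul_pos_iff.1 hpos with h | h
    · exact h.2
    · linarith [h.1]
  have hlC1 : C1 * Lam ≤ l := by
    have h1 : (b : ℝ) * (C1 * Lam) ≤ b * l := by
      have : (a : ℝ) * l ≥ 0 := by positivity
      linarith
    exact le_of_mul_le_mul_left h1 hb0
  have hx0 : 0 < lam 2 := by
    rcases Nat.eq_zero_or_pos (lam 2) with h | h
    · rw [h] at hl
      simp only [Nat.cast_zero, zero_div, Real.log_zero] at hl
      linarith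
    · exact h
  have hx0R : (0 : ℝ) < lam 2 := by exact_mod_cast hx0
  have hlx : Real.log (lam 2) = L + l := by
    rw [hl, Real.log_div hx0R.ne' ha0.ne', ← hL]
    ring
  have h1L0 : (0 : ℝ) < 1 + L := by linarith
  have h1L1 : (1 : ℝ) ≤ 1 + L := by linarith
  obtain ⟨n, hn4, hnm, hLn, hnM⟩ := size k L (by linarith)
  rw [← hM] at hnM
  obtain ⟨hlarge, hF1⟩ := large hM1 hC₀ (by linarith) hev (Nat.cast_nonneg n) hnM
  have hb2 : (b : ℝ) ≤ a * a := by
    calc (b : ℝ) ≤ C₀ * a * (1 + L) ^ c₀ := hb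
      _ = a * (C₀ * (1 + L) ^ c₀) := by ring
      _ ≤ a * a := mul_le_mul_of_nonneg_left hlarge ha0.le
  have hlb : Real.log b ≤ 2 * L := by
    have := Real.log_le_log hb0 hb2
    rw [Real.log_mul ha0.ne' ha0.ne', ← hL] at this
    linarith
  have hxb : (lam 2 : ℝ) ≤ a * b := by
    have h1 : lam 2 ≤ ∑ i, lam i :=
      Finset.single_le_sum (fun i _ => Nat.zero_le _) (Finset.mem_univ 2)
    rw [hsum] at h1
    exact_mod_cast h1
  have hl2L : l ≤ 2 * L := by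
    have := Real.log_le_log hx0R hxb
    rw [Real.log_mul ha0.ne' hb0.ne', ← hL, hlx] at this
    linarith
  -- (G)
  have hG : C1 * b ≤ (b - a) * (4 * L) := by
    have h1 : ((b : ℝ) - a) * l ≤ (b - a) * (2 * L) := mul_le_mul_of_nonneg_left hl2L hba0
    have h2 : C1 * b * (1 / 2) ≤ C1 * b * Lam :=
      mul_le_mul_of_nonneg_left hLam1 (by positivity)
    linarith
  have hn0 : 0 < n := by omega
  obtain ⟨B, hB0, hnBb, hBb, c1, c3, c4, hN⟩ := blocks (D := D) hL1 ha0 hab hn4 hLn hF1 hG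
    hC1b hC1d
  have hB0R : (0 : ℝ) < B := by exact_mod_cast hB0
  have hnR : (1 : ℝ) ≤ n := by exact_mod_cast hn0
  have hnDab : (n : ℝ) ^ D * (a + B) ≤ (n : ℝ) ^ D * (2 * b) :=
    mul_le_mul_of_nonneg_left (by linarith) (by positivity)
  -- logarithms
  have hn0R : (0 : ℝ) < n := by linarith
  have hln : Real.log n ≤ lM + Lam := by
    have h1 := Real.log_le_log hn0R hnM
    rw [Real.log_mul hM0.ne' h1L0.ne', ← hlM] at h1
    linarith
  have hlb' : Real.log b ≤ L + lC + c₀ * Lam := by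
    have h1 := Real.log_le_log hb0 hb
    rw [Real.log_mul (by positivity) (by positivity), Real.log_mul hC0.ne' ha0.ne',
      Real.log_pow, ← hlC, ← hL] at h1
    have h2 : (c₀ : ℝ) * Real.log (1 + L) ≤ c₀ * Lam :=
      mul_le_mul_of_nonneg_left hLam2 (Nat.cast_nonneg _)
    linarith
  obtain ⟨S, hS⟩ : ∃ x : ℝ, x = D * (lM + Lam) + lC + c₀ * Lam + 1 := ⟨_, rfl⟩
  have hD0 : (0 : ℝ) ≤ D := Nat.cast_nonneg _
  have hc00 : (0 : ℝ) ≤ c₀ := Nat.cast_nonneg _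
  have hDl : 0 ≤ (D : ℝ) * (lM + Lam) := mul_nonneg hD0 (by linarith)
  have hcL : 0 ≤ (c₀ : ℝ) * Lam := mul_nonneg hc00 (by linarith)
  have hS0 : 0 ≤ S := by
    rw [hS]
    linarith
  have hSc : S ≤ cS * Lam := by
    rw [hS, hcS]
    have h1 : (D : ℝ) * lM * 1 ≤ D * lM * (2 * Lam) :=
      mul_le_mul_of_nonneg_left (by linarith) (mul_nonneg hD0 hlM0)
    have h2 : lC * 1 ≤ lC * (2 * Lam) := mul_le_mul_of_nonneg_left (by linarith) hlC0
    linarith
  have hlnD : (D : ℝ) * Real.log n ≤ D * (lM + Lam) := mul_le_mul_of_nonneg_left hln hD0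
  have hp0 : 0 < n ^ D * B := Nat.mul_pos (pow_pos hn0 _) hB0
  have hlp : Real.log ((n ^ D * B : ℕ) : ℝ) + Real.log 2 ≤ L + S := by
    have h1 : Real.log (B : ℝ) ≤ Real.log b := Real.log_le_log hB0R hBb
    rw [Nat.cast_mul, Nat.cast_pow, Real.log_mul (by positivity) hB0R.ne', Real.log_pow, hS]
    linarith [log_two_le]
  have hlbS : Real.log b ≤ L + S := by
    rw [hS]
    linarith
  have hlam1 : 0 < lam 1 := by
    rcases Nat.eq_zero_or_pos (lam 1) with h | h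
    · rw [h] at hl1
      rw [Nat.cast_zero, mul_zero] at hl1
      have : (0 : ℝ) < (a : ℝ) ^ 2 := by positivity
      linarith
    · exact h
  have hlam1R : (0 : ℝ) < lam 1 := by exact_mod_cast hlam1
  have hll1 : 2 * L - S ≤ Real.log (lam 1) := by
    have h1 := Real.log_le_log (by positivity) hl1
    rw [Real.log_mul (by positivity) hlam1R.ne', Real.log_mul hC0.ne' (by positivity),
      Real.log_pow, Real.log_pow, ← hlC, ← hL] at h1
    have h2 : (c₀ : ℝ) * Real.log (1 + L) ≤ c₀ * Lam :=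
      mul_le_mul_of_nonneg_left hLam2 hc00
    push_cast at h1
    rw [hS]
    linarith
  -- (c5)
  have c5 : n ^ D * (a + B) ≤ gap lam j := by
    have hk3 : (0 : ℝ) < (k : ℝ) + 3 := by linarith
    have h1 : Real.log (((k : ℝ) + 3) * ((n : ℝ) ^ D * (2 * b))) ≤ Real.log (lam 2) := by
      rw [Real.log_mul hk3.ne' (by positivity), Real.log_mul (by positivity) (by positivity),
        Real.log_mul two_ne_zero hb0.ne', Real.log_pow, hlx]
      have h2 : Real.log ((k : ℝ) + 3) ≤ k + 3 :=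
        (Real.log_le_sub_one_of_pos hk3).trans (by linarith)
      have h3 : ((k : ℝ) + 3) * 1 ≤ (k + 3) * (2 * Lam) :=
        mul_le_mul_of_nonneg_left (by linarith) hk3.le
      have h4 : (cS + 2 * (k + 3)) * Lam ≤ C1 * Lam :=
        mul_le_mul_of_nonneg_right hC1c (by linarith)
      rw [hS] at hSc
      linarith [log_two_le]
    have h2 : ((k : ℝ) + 3) * ((n : ℝ) ^ D * (2 * b)) ≤ lam 2 :=
      (Real.log_le_log_iff (by positivity) hx0R).1 h1
    have h3 : (lam 2 : ℝ) ≤ ((k : ℝ) + 3) * gap lam j := by exact_mod_cast hgap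
    have h4 : ((k : ℝ) + 3) * ((n : ℝ) ^ D * (2 * b)) ≤ ((k : ℝ) + 3) * gap lam j :=
      h2.trans h3
    have h5 := le_of_mul_le_mul_left h4 hk3
    have h6 : (n : ℝ) ^ D * (a + B) ≤ gap lam j := hnDab.trans h5
    exact_mod_cast h6
  have hm := hLow n hn4 hnm a b B (gap lam) c1 hB0 c3 c4 c5
    ((sum_gap hlam).trans hsum)
  rw [gw_gap hlam] at hm
  have hup := hU (k + 1) a b lam hlam
  have hcmp := fin_cmp (nums (k := k) (a := a) (b := b) (B := B) (n := n) (p := n ^ D * B)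
    (lam := lam) (S := S) (C := C1) (Lam := Lam) (c := cS) ha1 hnBb (by omega) (hL ▸ hLn) hab
    hp0 hS0 (hL ▸ hlp) (hL ▸ hlbS) (hL ▸ hll1) hlam1 hlam hN hSc hLam1 hC1a hl2')
  have pX : 0 < (n * B).factorial * (n + n * a).choose n ^ B :=
    Nat.mul_pos (Nat.factorial_pos _) (pow_pos (Nat.choose_pos (Nat.le_add_right _ _)) _)
  exact Nat.le_of_mul_le_mul_left
    ((Nat.mul_le_mul_left _ hup).trans (hcmp.trans hm)) pX

/-- **[P3]** -/
theorem coreP (hLow : LowP) (hU : UpR) : CoreP := by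
  intro k c₀ C₀ hC₀
  have hJ : ∀ j : ℕ, ∃ C : ℝ, 0 < C ∧ (3 ≤ j → j ≤ k + 3 →
      ∀ (a b : ℕ) (lam : Fin (k + 3) → ℕ), Antitone lam →
      ∑ i, lam i = a * b → C ≤ a → a ≤ b →
      (b : ℝ) ≤ C₀ * a * (1 + Real.log a) ^ c₀ →
      (a : ℝ) ^ 2 ≤ C₀ * (1 + Real.log a) ^ c₀ * lam 1 →
      C * b * Real.log (2 + Real.log a) ≤ ((b : ℝ) - a) * Real.log ((lam 2 : ℝ) / a) →
      lam 2 ≤ (k + 3) * gap lam j →
      plethMult a b (k + 3) lam ≤ plethMult b a (k + 3) lam) := by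
    intro j
    by_cases hj : 3 ≤ j ∧ j ≤ k + 3
    · obtain ⟨C, hC, h⟩ := coreJ hLow hU k j c₀ C₀ hC₀ hj.1 hj.2
      exact ⟨C, hC, fun _ _ => h⟩
    · exact ⟨1, one_pos, fun h3 h4 => absurd ⟨h3, h4⟩ hj⟩
  choose C hC hJ using hJ
  have hs : 0 ≤ ∑ j ∈ Finset.range (k + 4), C j := Finset.sum_nonneg fun j _ => (hC j).le
  refine ⟨1 + ∑ j ∈ Finset.range (k + 4), C j, by linarith, ?_⟩
  intro a b lam hlam hsum hCa hab hb hl1 hl2
  obtain ⟨j, hj3, hjm, hgap⟩ := exists_gap k lam hlam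
  have h1 : C j ≤ ∑ j ∈ Finset.range (k + 4), C j :=
    Finset.single_le_sum (fun i _ => (hC i).le) (Finset.mem_range.2 (by omega))
  refine hJ j hj3 hjm a b lam hlam hsum (by linarith) hab hb hl1 ?_ hgap
  refine le_trans ?_ hl2
  have h2 : 0 ≤ Real.log (2 + Real.log a) :=
    Real.log_nonneg (by linarith [Real.log_natCast_nonneg a])
  have h3 : 0 ≤ (b : ℝ) * Real.log (2 + Real.log a) := mul_nonneg (Nat.cast_nonneg _) h2
  have h4 := mul_le_mul_of_nonneg_right (show C j ≤ 1 + ∑ j ∈ Finset.range (k + 4), C j by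
    linarith) h3
  linarith

end Vale.Agent.P181.NR.H153
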