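import Vale.Agent.P181.NR.DefsP

set_option autoImplicit false

/-!
# P181, NR, second step [P3]: the numbers
-/

namespace Vale.Agent.P181.NR.H153

lemma log_two_le : Real.log 2 ≤ 1 := by linarith [Real.log_two_lt_d9]

lemma half_le : (1 : ℝ) / 2 ≤ Real.log 2 := by linarith [Real.log_two_gt_d9]

/-- binomial coefficients -/
lemma choose_log (a x : ℕ) (ha : 0 < a) :
    Real.log (((a + x).choose a : ℕ) : ℝ) ≤ a * (2 + max 0 (Real.log ((x : ℝ) / a))) := by
  have haR : (0 : ℝ) < a := by exact_mod_cast ha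
  have h1 : (((a + x).choose a : ℕ) : ℝ) ≤ ((a + x : ℕ) : ℝ) ^ a / (a.factorial : ℝ) :=
    Nat.choose_le_pow_div a (a + x)
  have h2 : (a : ℝ) ^ a / (a.factorial : ℝ) ≤ Real.exp a :=
    Real.pow_div_factorial_le_exp a haR.le a
  have h3 : ((a + x : ℕ) : ℝ) ^ a / (a.factorial : ℝ) =
      (1 + (x : ℝ) / a) ^ a * ((a : ℝ) ^ a / (a.factorial : ℝ)) := by
    have e : ((a + x : ℕ) : ℝ) = (1 + (x : ℝ) / a) * a := by
      push_cast
      field_simp
    rw [e, mul_pow, mul_div_assoc]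
  have hx0 : 0 ≤ (x : ℝ) / a := by positivity
  have hy : 0 < 1 + (x : ℝ) / a := by linarith
  have h4 : (((a + x).choose a : ℕ) : ℝ) ≤ (1 + (x : ℝ) / a) ^ a * Real.exp a := by
    rw [h3] at h1
    exact h1.trans (mul_le_mul_of_nonneg_left h2 (pow_nonneg hy.le _))
  have h5 : (0 : ℝ) < (((a + x).choose a : ℕ) : ℝ) := by
    exact_mod_cast Nat.choose_pos (Nat.le_add_right _ _)
  have h6 := Real.log_le_log h5 h4
  rw [Real.log_mul (pow_pos hy _).ne' (Real.exp_ne_zero _), Real.log_pow, Real.log_exp] at h6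
  have h7 : Real.log (1 + (x : ℝ) / a) ≤ 1 + max 0 (Real.log ((x : ℝ) / a)) := by
    rcases le_or_gt x a with h | h
    · have h8 : 1 + (x : ℝ) / a ≤ 2 := by
        have : (x : ℝ) / a ≤ 1 := (div_le_one haR).2 (by exact_mod_cast h)
        linarith
      have h9 := Real.log_le_log hy h8
      have h10 := le_max_left 0 (Real.log ((x : ℝ) / a))
      linarith [log_two_le]
    · have h8 : 1 ≤ (x : ℝ) / a := (one_le_div haR).2 (by exact_mod_cast h.le)
      have h9 : 1 + (x : ℝ) / a ≤ 2 * ((x : ℝ) / a) := by linarith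
      have h10 := Real.log_le_log hy h9
      rw [Real.log_mul two_ne_zero (by linarith : (0 : ℝ) < (x : ℝ) / a).ne'] at h10
      have h11 := le_max_right 0 (Real.log ((x : ℝ) / a))
      linarith [log_two_le]
  have h8 := mul_le_mul_of_nonneg_left h7 haR.le
  linarith

/-- the truncated rows -/
lemma row_log (x p : ℕ) (hx : 0 < x) (hp : 0 < p) :
    Real.log x - Real.log p - Real.log 2 ≤ Real.log ((max 1 (x / p) : ℕ) : ℝ) := by
  have hpR : (0 : ℝ) < p := by exact_mod_cast hp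
  have hxR : (0 : ℝ) < x := by exact_mod_cast hx
  rw [← Real.log_div hxR.ne' hpR.ne', ← Real.log_div (div_pos hxR hpR).ne' two_ne_zero]
  apply Real.log_le_log (by positivity)
  rw [div_le_iff₀ two_pos, div_le_iff₀ hpR]
  have h1 : x < (x / p + 1) * p := by
    rw [← Nat.div_lt_iff_lt_mul hp]
    exact Nat.lt_succ_self _
  have h2 : x / p + 1 ≤ max 1 (x / p) * 2 := by omega
  have h3 : x ≤ max 1 (x / p) * 2 * p := h1.le.trans (Nat.mul_le_mul_right _ h2)
  exact_mod_cast h3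

/-- **the final inequality in logarithms** -/
theorem nums {k a b B n p : ℕ} {lam : Fin (k + 3) → ℕ} {S C Lam c : ℝ} (ha : 1 ≤ a)
    (hnB : n * B ≤ b) (hn : 2 * (k + 3) + 1 ≤ n)
    (hLn : Real.log a ≤ n) (hab : a ≤ b) (hp : 0 < p) (hS : 0 ≤ S)
    (hp2 : Real.log p + Real.log 2 ≤ Real.log a + S) (hb2 : Real.log b ≤ Real.log a + S)
    (h1 : 2 * Real.log a - S ≤ Real.log (lam 1)) (h1' : 0 < lam 1) (hlam : Antitone lam)
    (hN : ((b : ℝ) - a) / 2 ≤ (B : ℝ) * ((n - 2 * (k + 3) - 1 : ℕ) : ℝ) - a)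
    (hSL : S ≤ c * Lam) (hLam : 1 / 2 ≤ Lam) (hC : 2 * (k + 6) * c + 24 * k + 80 ≤ C)
    (h3 : C * b * Lam ≤ ((b : ℝ) - a) * Real.log ((lam 2 : ℝ) / a)) :
    Real.log (((a + b).choose a : ℕ) : ℝ) +
      ∑ i : Fin (k + 1), Real.log (((a + lam i.succ.succ).choose a : ℕ) : ℝ) +
      Real.log ((n * B).factorial : ℝ) + B * Real.log (((n + n * a).choose n : ℕ) : ℝ) ≤
      (B : ℝ) * ((n - 2 * (k + 3) - 1 : ℕ) : ℝ) *
        ∑ i, Real.log ((max 1 (lam i / p) : ℕ) : ℝ) := by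
  have haR : (1 : ℝ) ≤ a := by exact_mod_cast ha
  have habR : (a : ℝ) ≤ b := by exact_mod_cast hab
  have hBR : (0 : ℝ) ≤ B := Nat.cast_nonneg _
  have hnBR : (n : ℝ) * B ≤ b := by exact_mod_cast hnB
  have hL0 : 0 ≤ Real.log a := Real.log_natCast_nonneg a
  obtain ⟨L, hL⟩ : ∃ L, L = Real.log a := ⟨_, rfl⟩
  rw [← hL] at hL0 hLn hp2 hb2 h1
  have hkR : (0 : ℝ) ≤ k := Nat.cast_nonneg _
  obtain ⟨N', hN'⟩ : ∃ N' : ℝ, N' = (B : ℝ) * ((n - 2 * (k + 3) - 1 : ℕ) : ℝ) := ⟨_, rfl⟩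
  rw [← hN'] at hN ⊢
  have hN2 : N' = (n : ℝ) * B - (2 * k + 7) * B := by
    rw [hN', Nat.cast_sub (by omega), Nat.cast_sub (by omega)]
    push_cast
    ring
  have hN0 : 0 ≤ N' := by
    rw [hN']
    positivity
  have hBL : (B : ℝ) * L ≤ b := by
    calc (B : ℝ) * L ≤ B * n := mul_le_mul_of_nonneg_left hLn hBR
      _ ≤ b := by linarith
  have hNb : N' ≤ b := by
    rw [hN2]
    have : 0 ≤ (2 * (k : ℝ) + 7) * B := by positivity
    linarith
  -- the upper side
  have u1 : Real.log (((a + b).choose a : ℕ) : ℝ) ≤ 2 * b := by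
    have h5 : (0 : ℝ) < (((a + b).choose a : ℕ) : ℝ) := by
      exact_mod_cast Nat.choose_pos (Nat.le_add_right _ _)
    have h6 : (((a + b).choose a : ℕ) : ℝ) ≤ (2 : ℝ) ^ (a + b) := by
      exact_mod_cast Nat.choose_le_two_pow (a + b) a
    have h7 := Real.log_le_log h5 h6
    rw [Real.log_pow] at h7
    push_cast at h7
    have h8 : ((a : ℝ) + b) * Real.log 2 ≤ (a + b) * 1 :=
      mul_le_mul_of_nonneg_left log_two_le (by positivity)
    linarith
  obtain ⟨P, hP⟩ : ∃ P : Fin (k + 1) → ℝ,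
      P = fun i => max 0 (Real.log ((lam i.succ.succ : ℝ) / a)) := ⟨_, rfl⟩
  have hPi : ∀ i, P i = max 0 (Real.log ((lam i.succ.succ : ℝ) / a)) := fun i => by rw [hP]
  have hP0 : ∀ i, 0 ≤ P i := fun i => by
    rw [hPi]
    exact le_max_left _ _
  have u2 : ∑ i : Fin (k + 1), Real.log (((a + lam i.succ.succ).choose a : ℕ) : ℝ) ≤
      2 * (k + 1) * a + a * ∑ i, P i := by
    have h5 : ∀ i ∈ (Finset.univ : Finset (Fin (k + 1))),
        Real.log (((a + lam i.succ.succ).choose a : ℕ) : ℝ) ≤ a * (2 + P i) := by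
      intro i _
      rw [hPi]
      exact choose_log a _ ha
    have h6 := Finset.sum_le_sum h5
    rw [← Finset.mul_sum, Finset.sum_add_distrib, Finset.sum_const, Finset.card_univ,
      Fintype.card_fin, nsmul_eq_mul] at h6
    push_cast at h6
    linarith
  have u3 : Real.log ((n * B).factorial : ℝ) ≤ n * B * (L + S) := by
    rcases Nat.eq_zero_or_pos (n * B) with h | h
    · rw [h, Nat.factorial_zero, Nat.cast_one, Real.log_one]
      have : (0 : ℝ) ≤ (n : ℝ) * B := by positivity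
      exact mul_nonneg this (by linarith)
    · have h5 : (((n * B).factorial : ℕ) : ℝ) ≤ ((n * B : ℕ) : ℝ) ^ (n * B) := by
        exact_mod_cast Nat.factorial_le_pow (n * B)
      have h6 := Real.log_le_log (by exact_mod_cast Nat.factorial_pos _) h5
      rw [Real.log_pow] at h6
      have h7 : Real.log ((n * B : ℕ) : ℝ) ≤ L + S := by
        refine le_trans (Real.log_le_log (by exact_mod_cast h) ?_) hb2
        exact_mod_cast hnB
      have h8 := mul_le_mul_of_nonneg_left h7 (Nat.cast_nonneg (n * B) : (0 : ℝ) ≤ _)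
      have h9 : ((n * B : ℕ) : ℝ) = (n : ℝ) * B := by push_cast; ring
      rw [h9] at h6 h8
      linarith
  have hn0 : 0 < n := by omega
  have u4 : B * Real.log (((n + n * a).choose n : ℕ) : ℝ) ≤ n * B * (2 + L) := by
    have h5 := choose_log n (n * a) hn0
    have h6 : ((n * a : ℕ) : ℝ) / n = a := by
      have : (n : ℝ) ≠ 0 := by exact_mod_cast hn0.ne'
      push_cast
      field_simp
    rw [h6, ← hL, max_eq_right hL0] at h5
    have h7 := mul_le_mul_of_nonneg_left h5 hBR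
    linarith
  -- the lower side
  obtain ⟨l, hl⟩ : ∃ l : Fin (k + 3) → ℝ,
      l = fun i => Real.log ((max 1 (lam i / p) : ℕ) : ℝ) := ⟨_, rfl⟩
  have hli : ∀ i, l i = Real.log ((max 1 (lam i / p) : ℕ) : ℝ) := fun i => by rw [hl]
  have hl0 : ∀ i, 0 ≤ l i := by
    intro i
    rw [hli]
    apply Real.log_nonneg
    exact_mod_cast le_max_left 1 (lam i / p)
  have hrow : ∀ i, 0 < lam i → Real.log (lam i) - L - S ≤ l i := by
    intro i hi
    rw [hli]
    have := row_log (lam i) p hi hp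
    linarith
  have hl1 : L - 2 * S ≤ l 1 := by
    have := hrow 1 h1'
    linarith
  have hl00 : L - 2 * S ≤ l 0 := by
    have h5 : lam 1 ≤ lam 0 := hlam (Fin.zero_le _)
    have h6 := hrow 0 (lt_of_lt_of_le h1' h5)
    have h7 : Real.log (lam 1) ≤ Real.log (lam 0) :=
      Real.log_le_log (by exact_mod_cast h1') (by exact_mod_cast h5)
    linarith
  have hlP : ∀ i : Fin (k + 1), P i - S ≤ l i.succ.succ := by
    intro i
    rw [hPi]
    rcases Nat.eq_zero_or_pos (lam i.succ.succ) with h | h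
    · have h5 := hl0 i.succ.succ
      rw [h]
      simp only [Nat.cast_zero, zero_div, Real.log_zero, max_self]
      linarith
    · have h5 := hrow _ h
      have h6 := hl0 i.succ.succ
      rw [Real.log_div (by exact_mod_cast h.ne') (by positivity), ← hL]
      rcases le_total 0 (Real.log (lam i.succ.succ) - L) with h7 | h7
      · rw [max_eq_right h7]
        linarith
      · rw [max_eq_left h7]
        linarith
  have hsum : ∑ i, l i = l 0 + (l 1 + ∑ i : Fin (k + 1), l i.succ.succ) := by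
    rw [Fin.sum_univ_succ, Fin.sum_univ_succ]
    rfl
  have hsum2 : ∑ i : Fin (k + 1), P i - (k + 1) * S ≤ ∑ i : Fin (k + 1), l i.succ.succ := by
    have h5 := Finset.sum_le_sum (s := Finset.univ) fun i (_ : i ∈ Finset.univ) => hlP i
    rw [Finset.sum_sub_distrib, Finset.sum_const, Finset.card_univ, Fintype.card_fin,
      nsmul_eq_mul] at h5
    push_cast at h5
    exact h5
  have hgoal : ∑ i, Real.log ((max 1 (lam i / p) : ℕ) : ℝ) = ∑ i, l i :=
    Finset.sum_congr rfl fun i _ => (hli i).symm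
  rw [hgoal]
  -- row three
  have hPs : Real.log ((lam 2 : ℝ) / a) ≤ ∑ i : Fin (k + 1), P i := by
    have h5 : P 0 ≤ ∑ i : Fin (k + 1), P i :=
      Finset.single_le_sum (fun i _ => hP0 i) (Finset.mem_univ 0)
    have h6 : Real.log ((lam 2 : ℝ) / a) ≤ P 0 := by
      rw [hPi]
      exact le_max_right _ _
    exact h6.trans h5
  obtain ⟨Q, hQ⟩ : ∃ Q, Q = ∑ i : Fin (k + 1), P i := ⟨_, rfl⟩
  rw [← hQ] at hsum2 hPs u2
  have hQ0 : 0 ≤ Q := by
    rw [hQ]
    exact Finset.sum_nonneg fun i _ => hP0 i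
  have hba : 0 ≤ (b : ℝ) - a := by linarith
  have e1 : C * b * Lam ≤ (b - a) * Q := h3.trans (mul_le_mul_of_nonneg_left hPs hba)
  have e2 : ((b : ℝ) - a) / 2 * Q ≤ (N' - a) * Q := mul_le_mul_of_nonneg_right hN hQ0
  have e3 : N' * (2 * (L - 2 * S) + (Q - (k + 1) * S)) ≤ N' * ∑ i, l i := by
    apply mul_le_mul_of_nonneg_left _ hN0
    rw [hsum]
    linarith
  have hb0 : (0 : ℝ) ≤ b := Nat.cast_nonneg _
  -- the losses
  have e4 : n * B * L * 2 - 4 * (b * S) - 2 * (2 * k + 7) * b ≤ N' * (2 * (L - 2 * S)) := by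
    rw [hN2]
    have f1 : (n : ℝ) * B * S ≤ b * S := mul_le_mul_of_nonneg_right hnBR hS
    have f2 : 0 ≤ (2 * (k : ℝ) + 7) * B * S := by positivity
    have f3 : (2 * (k : ℝ) + 7) * (B * L) ≤ (2 * k + 7) * b :=
      mul_le_mul_of_nonneg_left hBL (by positivity)
    linarith
  have e5 : N' * ((k + 1) * S) ≤ b * ((k + 1) * S) :=
    mul_le_mul_of_nonneg_right hNb (by positivity)
  have e6 : (n : ℝ) * B * S ≤ b * S := mul_le_mul_of_nonneg_right hnBR hS
  have e7 : 2 * ((k : ℝ) + 1) * a ≤ 2 * (k + 1) * b :=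
    mul_le_mul_of_nonneg_left habR (by positivity)
  have e8 : (b : ℝ) * S ≤ b * (c * Lam) := mul_le_mul_of_nonneg_left hSL hb0
  have e9 : (k + 6 : ℝ) * (b * S) ≤ (k + 6) * (b * (c * Lam)) :=
    mul_le_mul_of_nonneg_left e8 (by positivity)
  have e10 : (b : ℝ) * 1 ≤ b * (2 * Lam) := mul_le_mul_of_nonneg_left (by linarith) hb0
  have e11 : (6 * (k : ℝ) + 20) * (b * 1) ≤ (6 * k + 20) * (b * (2 * Lam)) :=
    mul_le_mul_of_nonneg_left e10 (by positivity)
  have hbL : 0 ≤ (b : ℝ) * Lam := mul_nonneg hb0 (by linarith)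
  have e12 := mul_le_mul_of_nonneg_right hC hbL
  have e13 : (N' - a) * Q = N' * Q - a * Q := by ring
  linarith

end Vale.Agent.P181.NR.H153
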